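import Vale.Agent.P181.GK.Defs
import Vale.Agent.P181.R2.H280.V2

set_option autoImplicit false

/-!
# P181, GK, row G2: degrees of the polarised substitution in the first two coordinates
-/

open MvPolynomial

namespace Vale.Agent.P181.GK.H312

open Vale.Agent.P181.H280 (IsBorel)
open Vale.Agent.P181.FR
open Vale.Agent.P181.VT
open Vale.Agent.P181.VT.V2H280
open Vale.Agent.P181.H188W (MPd MPd_const MPd_mul MPd_one MPd_pow MPd_prod dt coord_MPd dt_MPd)

/-- The first two coordinates. -/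
def iota (n : ℕ) : Fin (1 + 1) → Fin (n + 2) := fun i => if i = 0 then 0 else 1

lemma xx_eq {B n : ℕ} (p : Fin B → Fin (n + 2) → ℂ) (j : Fin B) :
    xx p j = p j ∘ iota n := by
  funext i
  fin_cases i
  · rfl
  · rfl

lemma pull {B n : ℕ} {d : Fin B → ℕ} {G : (Fin B → Fin (1 + 1) → ℂ) → ℂ}
    (hG : G ∈ MPd B (1 + 1) d) :
    (fun p : Fin B → Fin (n + 2) → ℂ => G (xx p)) ∈ MPd B (n + 2) d := by
  induction hG using Submodule.span_induction with
  | mem G h =>
    obtain ⟨q, hq, rfl⟩ := h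
    refine Submodule.subset_span ⟨fun j => rename (iota n) (q j),
      fun j => (hq j).rename_isHomogeneous, ?_⟩
    funext p
    apply Finset.prod_congr rfl
    intro j _
    rw [eval_rename, xx_eq]
  | zero => exact Submodule.zero_mem _
  | add F G _ _ h1 h2 => exact Submodule.add_mem _ h1 h2
  | smul c F _ h1 => exact Submodule.smul_mem _ c h1

/-- The entries of a frame. -/
noncomputable def En {k : ℕ} (H : Matrix (Fin (1 + 1)) (Fin (1 + 1)) ℂ) (u l : Fin (1 + 1))
    (β : Fin k) (p : Fin (k * nn 1) → Fin (1 + 1) → ℂ) : ℂ := (Yb (pt p β) * H) u l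

lemma adj2 (A : Matrix (Fin (1 + 1)) (Fin (1 + 1)) ℂ) (u i : Fin (1 + 1)) :
    A.adjugate u i = (if u = i then 1 else -1) * A (if i = 0 then 1 else 0)
      (if u = 0 then 1 else 0) := by
  have h : A.adjugate = !![A 1 1, -A 0 1; -A 1 0, A 0 0] := Matrix.adjugate_fin_two A
  rw [h]
  fin_cases u <;> fin_cases i <;> simp

lemma En_mem {k : ℕ} (H : Matrix (Fin (1 + 1)) (Fin (1 + 1)) ℂ) (u l : Fin (1 + 1))
    (β : Fin k) : En H u l β ∈ MPd (k * nn 1) (1 + 1) (bl β) := by
  classical
  let e1 : Fin (1 + 1) → Fin (k * nn 1) := fun i =>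
    finProdFinEquiv (β, Fin.castAdd (1 + (1 + 1)) (if i = 0 then 1 else 0))
  let e2 : Fin (1 + 1) → Fin (1 + 1) → Fin (k * nn 1) := fun i =>
    Fin.cons (finProdFinEquiv (β, Fin.castAdd _ i))
      (fun u : Fin 1 => finProdFinEquiv (β, Fin.natAdd (1 + 1) (Fin.castAdd (1 + 1) u)))
  let e3 : Fin (1 + 1) → Fin (k * nn 1) := fun v =>
    finProdFinEquiv (β, Fin.natAdd (1 + 1) (Fin.natAdd 1 v))
  have hE : En H u l β = ∑ i, (H i l * (if u = i then 1 else -1)) •
      ((fun p : Fin (k * nn 1) → Fin (1 + 1) → ℂ => p (e1 i) (if u = 0 then 1 else 0)) *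
        (dt le_rfl (e2 i) * dt le_rfl e3)) := by
    funext p
    rw [Finset.sum_apply]
    unfold En Yb
    rw [Matrix.mul_apply]
    apply Finset.sum_congr rfl
    intro i _
    rw [Matrix.mul_diagonal, adj2]
    have h2 : (WB (pt p β) i).det = dt le_rfl (e2 i) p := by
      unfold dt
      congr 1
      ext x y
      rw [Matrix.of_apply]
      refine Fin.cases ?_ (fun u => ?_) x
      · rfl
      · rfl
    have h3 : (WC (pt p β)).det = dt le_rfl e3 p := rfl
    rw [h2, h3]
    simp only [Pi.smul_apply, Pi.mul_apply, smul_eq_mul]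
    have h4 : WA (pt p β) (if i = 0 then 1 else 0) (if u = 0 then 1 else 0) =
        p (e1 i) (if u = 0 then 1 else 0) := rfl
    rw [h4]
    ring
  rw [hE]
  apply Submodule.sum_mem
  intro i _
  apply Submodule.smul_mem
  have hd : (bl β : Fin (k * nn 1) → ℕ) =
      Pi.single (e1 i) 1 + ((∑ x, Pi.single (e2 i x) 1) + ∑ x, Pi.single (e3 x) 1) := by
    have h2 : (∑ x, Pi.single (e2 i x) 1 : Fin (k * nn 1) → ℕ) =
        Pi.single (finProdFinEquiv (β, Fin.castAdd (1 + (1 + 1)) i)) 1 +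
          ∑ u : Fin 1, Pi.single
            (finProdFinEquiv (β, Fin.natAdd (1 + 1) (Fin.castAdd (1 + 1) u))) 1 := by
      rw [Fin.sum_univ_succ]
      rfl
    have h3 : (bl β : Fin (k * nn 1) → ℕ) =
        (∑ x, Pi.single (finProdFinEquiv (β, Fin.castAdd (1 + (1 + 1)) x)) 1) +
          ((∑ u : Fin 1, Pi.single
            (finProdFinEquiv (β, Fin.natAdd (1 + 1) (Fin.castAdd (1 + 1) u))) 1) +
            ∑ x, Pi.single (e3 x) 1) := by
      unfold bl
      rw [Fin.sum_univ_add]
      congr 1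
    have h5 : (∑ x : Fin (1 + 1), Pi.single (finProdFinEquiv (β, Fin.castAdd (1 + (1 + 1)) x)) 1 :
        Fin (k * nn 1) → ℕ) = Pi.single (e1 i) 1 +
          Pi.single (finProdFinEquiv (β, Fin.castAdd (1 + (1 + 1)) i)) 1 := by
      rw [Fin.sum_univ_two]
      fin_cases i
      · rw [add_comm]
        rfl
      · rfl
    rw [h2, h3, h5]
    abel
  rw [hd]
  exact MPd_mul (coord_MPd _ _) (MPd_mul (dt_MPd _ _) (dt_MPd _ _))

lemma YY_ent {k : ℕ} (t : Fin k → ℂ) (p : Fin (k * nn 1) → Fin (1 + 1) → ℂ)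
    (H : Matrix (Fin (1 + 1)) (Fin (1 + 1)) ℂ) (u l : Fin (1 + 1)) :
    (YY t p * H) u l = ∑ β, t β * En H u l β p := by
  have h1 : YY t p * H = ∑ β, t β • (Yb (pt p β) * H) := by
    unfold YY
    rw [Finset.sum_mul]
    exact Finset.sum_congr rfl (fun β _ => Matrix.smul_mul _ _ _)
  rw [h1, Matrix.sum_apply]
  rfl

/-- The coordinate attached to a bit. -/
def bt (b : Bool) : Fin (1 + 1) := if b then 1 else 0

/-- The sign attached to a bit. -/
def sg (b : Bool) : ℂ := if b then -1 else 1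

lemma det_pow (M : Matrix (Fin (1 + 1)) (Fin (1 + 1)) ℂ) (s : ℕ) :
    M.det ^ s = ∑ ε : Fin s → Bool, (∏ v, sg (ε v)) *
      ∏ x : Fin s × Bool, M (bt x.2) (bt (xor x.2 (ε x.1))) := by
  classical
  have h1 : M.det = ∑ b : Bool, sg b * ∏ y : Bool, M (bt y) (bt (xor y b)) := by
    have h2 : M.det = M 0 0 * M 1 1 - M 0 1 * M 1 0 := Matrix.det_fin_two M
    rw [h2]
    simp [sg, bt]
    ring
  have h3 : M.det ^ s = ∏ _v : Fin s, M.det := by simp
  rw [h3]
  simp only [h1]
  rw [Finset.prod_univ_sum, Fintype.piFinset_univ]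
  apply Finset.sum_congr rfl
  intro ε _
  rw [Finset.prod_mul_distrib, Fintype.prod_prod_type]

/-- The counts. -/
def cntU {U : Type} [Fintype U] {k : ℕ} (φ : U → Fin k) (β : Fin k) : ℕ :=
  (Finset.univ.filter (fun u => φ u = β)).card

lemma prod_cntU {U : Type} [Fintype U] {k : ℕ} (φ : U → Fin k) (t : Fin k → ℂ) :
    ∏ u, t (φ u) = ∏ β, t β ^ cntU φ β := by
  classical
  rw [← Finset.prod_fiberwise' Finset.univ φ t]
  apply Finset.prod_congr rfl
  intro β _
  rw [Finset.prod_const]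
  rfl

lemma sum_cntU {U : Type} [Fintype U] {k : ℕ} (φ : U → Fin k) :
    ∑ β, cntU φ β = Fintype.card U := by
  classical
  have h := Finset.card_eq_sum_card_fiberwise (s := (Finset.univ : Finset U))
    (t := Finset.univ) (f := φ) (fun _ _ => Finset.mem_univ _)
  rw [Finset.card_univ] at h
  exact h.symm

/-- The polarised product of linear functions of `t`. -/
lemma gen {k N m c : ℕ} {U : Type} [Fintype U] [DecidableEq U] (τ : Fin N → Fin k → ℂ)
    (α : Fin N → ℂ) (hP : Polar k (nn 1 * c) τ α) (hU : Fintype.card U = k * (nn 1 * c))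
    (base : U → Fin (k * nn 1) → ℕ) (A : U → Fin k → (Fin (k * nn 1) → Fin m → ℂ) → ℂ)
    (hA : ∀ u β, A u β ∈ MPd (k * nn 1) m (base u + bl β)) :
    (fun p => ∑ i, α i * ∏ u, ∑ β, τ i β * A u β p) ∈
      MPd (k * nn 1) m ((∑ u, base u) + fun _ => nn 1 * c) := by
  classical
  have h0 : (fun p => ∑ i, α i * ∏ u, ∑ β, τ i β * A u β p) =
      ∑ φ : U → Fin k, (if cntU φ = fun _ => nn 1 * c then (1 : ℂ) else 0) •
        ∏ u, A u (φ u) := by
    funext p
    rw [Finset.sum_apply]
    have h1 : ∀ i, ∏ u, ∑ β, τ i β * A u β p = ∑ φ : U → Fin k,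
        (∏ β, τ i β ^ cntU φ β) * ∏ u, A u (φ u) p := by
      intro i
      rw [Finset.prod_univ_sum, Fintype.piFinset_univ]
      apply Finset.sum_congr rfl
      intro φ _
      rw [Finset.prod_mul_distrib, prod_cntU]
    rw [Finset.sum_congr rfl (fun i _ => by rw [h1 i, Finset.mul_sum])]
    rw [Finset.sum_comm]
    apply Finset.sum_congr rfl
    intro φ _
    rw [Pi.smul_apply, smul_eq_mul, Finset.prod_apply]
    have h2 := hP (cntU φ) (by rw [sum_cntU, hU])
    rw [← h2, Finset.sum_mul]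
    apply Finset.sum_congr rfl
    intro i _
    ring
  rw [h0]
  apply Submodule.sum_mem
  intro φ _
  by_cases hφ : cntU φ = fun _ => nn 1 * c
  swap
  · rw [if_neg hφ, zero_smul]
    exact Submodule.zero_mem _
  rw [if_pos hφ, one_smul]
  have h1 := MPd_prod (Finset.univ : Finset U)
    (fun u => (base u + bl (φ u) : Fin (k * nn 1) → ℕ))
    (fun u => A u (φ u)) (fun u _ => hA u (φ u))
  have h2 : (∑ u : U, (base u + bl (φ u) : Fin (k * nn 1) → ℕ)) =
      (∑ u, base u) + fun _ => nn 1 * c := by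
    rw [Finset.sum_add_distrib]
    congr 1
    funext x
    rw [Finset.sum_apply]
    simp only [bl_apply]
    rw [← Finset.card_filter]
    exact congrFun hφ _
  rw [h2] at h1
  exact h1

/-- The number of letters in the first two coordinates. -/
def c01 {B a n : ℕ} (f : Fin B → Fin a → Fin (n + 2)) : ℕ :=
  Fintype.card {x : Fin B × Fin a // (f x.1 x.2 : ℕ) < 2}

lemma cb_ge {n : ℕ} (v : Fin (1 + 1) → ℂ) (q : Fin (n + 2) → ℂ) (x : Fin (n + 2))
    (hx : ¬ (x : ℕ) < 2) : cb v q x = q x := by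
  revert hx
  refine Fin.cases ?_ (fun y => ?_) x
  · intro hx
    exact absurd (by simp) hx
  · refine Fin.cases ?_ (fun z => ?_) y
    · intro hx
      exact absurd (by simp) hx
    · intro _
      rfl

lemma cb_lt {n : ℕ} (v : Fin (1 + 1) → ℂ) (q : Fin (n + 2) → ℂ) (x : Fin (n + 2))
    (hx : (x : ℕ) < 2) : cb v q x = v ⟨x, hx⟩ := by
  revert hx
  refine Fin.cases ?_ (fun y => ?_) x
  · intro hx
    rfl
  · refine Fin.cases ?_ (fun z => ?_) y
    · intro hx
      rfl
    · intro hx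
      exfalso
      simp at hx

lemma TG_mo_mem {k N n s c a : ℕ} (τ : Fin N → Fin k → ℂ) (α : Fin N → ℂ)
    (hP : Polar k (nn 1 * c) τ α) (H : Matrix (Fin (1 + 1)) (Fin (1 + 1)) ℂ)
    (f : Fin (k * nn 1) → Fin a → Fin (n + 2)) (hf : c01 f + 2 * s = k * nn 1 * c) :
    TG s τ α H (mo f) ∈ MP (k * nn 1) (n + 2) (a + nn 1 * c) := by
  classical
  let S := {x : Fin (k * nn 1) × Fin a // (f x.1 x.2 : ℕ) < 2}
  let T := {x : Fin (k * nn 1) × Fin a // ¬ (f x.1 x.2 : ℕ) < 2}
  let U := (Fin s × Bool) ⊕ S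
  let A : (Fin s → Bool) → U → Fin k → (Fin (k * nn 1) → Fin (n + 2) → ℂ) → ℂ := fun ε u β =>
    match u with
    | .inl x => fun p => En H (bt x.2) (bt (xor x.2 (ε x.1))) β (xx p)
    | .inr x => fun p => E H x.1.1 ⟨(f x.1.1 x.1.2 : ℕ), x.2⟩ β (xx p)
  let base : U → Fin (k * nn 1) → ℕ := fun u =>
    match u with
    | .inl _ => 0
    | .inr x => Pi.single x.1.1 1
  have hA : ∀ ε u β, A ε u β ∈ MPd (k * nn 1) (n + 2) (base u + bl β) := by
    intro ε u β
    rcases u with x | x
    · have h1 := pull (n := n) (En_mem H (bt x.2) (bt (xor x.2 (ε x.1))) β)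
      have h2 : (base (.inl x) + bl β : Fin (k * nn 1) → ℕ) = bl β := zero_add _
      rw [h2]
      exact h1
    · exact pull (n := n) (E_mem H x.1.1 ⟨(f x.1.1 x.1.2 : ℕ), x.2⟩ β)
  have hU : Fintype.card U = k * (nn 1 * c) := by
    have h1 : Fintype.card U = s * 2 + c01 f := by
      rw [Fintype.card_sum, Fintype.card_prod, Fintype.card_fin, Fintype.card_bool]
      rfl
    rw [h1, ← mul_assoc, ← hf]
    ring
  have hG0 : (∏ x : T, fun p : Fin (k * nn 1) → Fin (n + 2) → ℂ => p x.1.1 (f x.1.1 x.1.2)) ∈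
      MPd (k * nn 1) (n + 2) (∑ x : T, Pi.single x.1.1 1) :=
    MPd_prod Finset.univ _ _ (fun x _ => coord_MPd _ _)
  have hexp : TG s τ α H (mo f) = ∑ ε : Fin s → Bool, (∏ v, sg (ε v)) •
      ((∏ x : T, fun p : Fin (k * nn 1) → Fin (n + 2) → ℂ => p x.1.1 (f x.1.1 x.1.2)) *
        fun p => ∑ i, α i * ∏ u, ∑ β, τ i β * A ε u β p) := by
    funext p
    rw [Finset.sum_apply]
    have h1 : ∀ i, mo f (fun j => cb (Matrix.vecMul (xx p j) (YY (τ i) (xx p) * H)) (p j)) =
        (∏ x : S, ∑ β, τ i β * E H x.1.1 ⟨(f x.1.1 x.1.2 : ℕ), x.2⟩ β (xx p)) *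
          ∏ x : T, p x.1.1 (f x.1.1 x.1.2) := by
      intro i
      unfold mo
      rw [← Fintype.prod_prod_type' (f := fun (j : Fin (k * nn 1)) (t : Fin a) =>
        cb (Matrix.vecMul (xx p j) (YY (τ i) (xx p) * H)) (p j) (f j t))]
      rw [← Fintype.prod_subtype_mul_prod_subtype
        (fun x : Fin (k * nn 1) × Fin a => (f x.1 x.2 : ℕ) < 2)]
      congr 1
      · apply Finset.prod_congr rfl
        intro x _
        rw [cb_lt _ _ _ x.2, YY_vec]
      · apply Finset.prod_congr rfl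
        intro x _
        rw [cb_ge _ _ _ x.2]
    unfold TG
    have h2 : ∀ i, α i * ((YY (τ i) (xx p) * H).det ^ s *
        mo f (fun j => cb (Matrix.vecMul (xx p j) (YY (τ i) (xx p) * H)) (p j))) =
        ∑ ε : Fin s → Bool, (∏ v, sg (ε v)) * ((∏ x : T, p x.1.1 (f x.1.1 x.1.2)) *
          (α i * ∏ u, ∑ β, τ i β * A ε u β p)) := by
      intro i
      rw [h1 i, det_pow, Finset.sum_mul, Finset.mul_sum]
      apply Finset.sum_congr rfl
      intro ε _
      have h3 : ∏ u, ∑ β, τ i β * A ε u β p =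
          (∏ x : Fin s × Bool, (YY (τ i) (xx p) * H) (bt x.2) (bt (xor x.2 (ε x.1)))) *
          ∏ x : S, ∑ β, τ i β * E H x.1.1 ⟨(f x.1.1 x.1.2 : ℕ), x.2⟩ β (xx p) := by
        rw [Fintype.prod_sum_type]
        congr 1
        apply Finset.prod_congr rfl
        intro x _
        rw [YY_ent]
      rw [h3]
      ring
    rw [Finset.sum_congr rfl (fun i _ => h2 i), Finset.sum_comm]
    apply Finset.sum_congr rfl
    intro ε _
    rw [Pi.smul_apply, smul_eq_mul, Pi.mul_apply, Finset.prod_apply, Finset.mul_sum,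
      Finset.mul_sum]
  rw [hexp]
  apply Submodule.sum_mem
  intro ε _
  apply Submodule.smul_mem
  have h4 := MPd_mul hG0 (gen τ α hP hU base (A ε) (hA ε))
  have h5 : (∑ x : T, Pi.single x.1.1 1 : Fin (k * nn 1) → ℕ) +
      ((∑ u, base u) + fun _ => nn 1 * c) = fun _ => a + nn 1 * c := by
    have h6 : ∑ u, base u = ∑ x : S, (Pi.single x.1.1 1 : Fin (k * nn 1) → ℕ) := by
      rw [Fintype.sum_sum_type]
      have h7 : ∑ x : Fin s × Bool, base (.inl x) = 0 := Finset.sum_eq_zero (fun _ _ => rfl)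
      rw [h7, zero_add]
    have h8 : (∑ x : S, (Pi.single x.1.1 1 : Fin (k * nn 1) → ℕ)) +
        ∑ x : T, (Pi.single x.1.1 1 : Fin (k * nn 1) → ℕ) = fun _ => a := by
      have h9 := Fintype.sum_subtype_add_sum_subtype
        (fun x : Fin (k * nn 1) × Fin a => (f x.1 x.2 : ℕ) < 2)
        (fun x => (Pi.single x.1 1 : Fin (k * nn 1) → ℕ))
      have h10 : (∑ x : Fin (k * nn 1) × Fin a, (Pi.single x.1 1 : Fin (k * nn 1) → ℕ)) =
          fun _ => a := by
        funext y
        rw [Finset.sum_apply, Fintype.sum_prod_type]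
        simp only [Finset.sum_const, Finset.card_univ, Fintype.card_fin, smul_eq_mul]
        rw [← Finset.mul_sum]
        simp [Pi.single_apply]
      rw [← h10, ← h9]
    rw [h6]
    have h11 : (∑ x : T, (Pi.single x.1.1 1 : Fin (k * nn 1) → ℕ)) +
        ((∑ x : S, (Pi.single x.1.1 1 : Fin (k * nn 1) → ℕ)) + fun _ => nn 1 * c) =
        ((∑ x : S, (Pi.single x.1.1 1 : Fin (k * nn 1) → ℕ)) +
          ∑ x : T, (Pi.single x.1.1 1 : Fin (k * nn 1) → ℕ)) + fun _ => nn 1 * c := by
      abel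
    rw [h11, h8]
    rfl
  rw [h5] at h4
  exact h4

/-- A homogeneous function of degree `d` in the first two coordinates is a combination of
monomials of degree `d`. -/
lemma proj {B n a d : ℕ} (F : (Fin B → Fin (n + 2) → ℂ) → ℂ) (hF : F ∈ MP B (n + 2) a)
    (hh : ∀ z : ℂ, z ≠ 0 → ∀ p, F (fun j => cb (z • xx p j) (p j)) = z ^ d * F p) :
    ∃ w : (Fin B → Fin a → Fin (n + 2)) → ℂ, (∀ f, w f ≠ 0 → c01 f = d) ∧
      F = ∑ f, w f • mo f := by
  classical
  have h1 := MP_le (r := n + 1) hF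
  rw [Submodule.mem_span_range_iff_exists_fun] at h1
  obtain ⟨w, hw⟩ := h1
  refine ⟨fun f => if c01 f = d then w f else 0, ?_, ?_⟩
  · intro f hf
    by_contra h
    exact hf (if_neg h)
  funext p
  let Q : Polynomial ℂ := (∑ f, Polynomial.C (w f * mo f p) * Polynomial.X ^ c01 f) -
    Polynomial.C (F p) * Polynomial.X ^ d
  have hmo : ∀ (z : ℂ) (f : Fin B → Fin a → Fin (n + 2)),
      mo f (fun j => cb (z • xx p j) (p j)) = z ^ c01 f * mo f p := by
    intro z f
    unfold mo
    rw [← Fintype.prod_prod_type' (f := fun (j : Fin B) (t : Fin a) =>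
      cb (z • xx p j) (p j) (f j t)),
      ← Fintype.prod_prod_type' (f := fun (j : Fin B) (t : Fin a) => p j (f j t)),
      ← Fintype.prod_subtype_mul_prod_subtype
        (fun x : Fin B × Fin a => (f x.1 x.2 : ℕ) < 2)
        (fun x => cb (z • xx p x.1) (p x.1) (f x.1 x.2)),
      ← Fintype.prod_subtype_mul_prod_subtype
        (fun x : Fin B × Fin a => (f x.1 x.2 : ℕ) < 2)
        (fun x => p x.1 (f x.1 x.2)), ← mul_assoc]
    congr 1
    · have h2 : ∀ x : {x : Fin B × Fin a // (f x.1 x.2 : ℕ) < 2},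
          cb (z • xx p x.1.1) (p x.1.1) (f x.1.1 x.1.2) = z * p x.1.1 (f x.1.1 x.1.2) := by
        intro x
        rw [cb_lt _ _ _ x.2, Pi.smul_apply, smul_eq_mul]
        congr 1
        have h3 := cb_lt (xx p x.1.1) (p x.1.1) _ x.2
        rw [← h3]
        generalize f x.1.1 x.1.2 = y
        refine Fin.cases rfl (fun y' => ?_) y
        refine Fin.cases rfl (fun y'' => rfl) y'
      rw [Finset.prod_congr rfl (fun x _ => h2 x), Finset.prod_mul_distrib, Finset.prod_const]
      rfl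
    · apply Finset.prod_congr rfl
      intro x _
      rw [cb_ge _ _ _ x.2]
  have hQ0 : ∀ z : ℂ, z ≠ 0 → Q.eval z = 0 := by
    intro z hz
    have h2 := hh z hz p
    have h3 : F (fun j => cb (z • xx p j) (p j)) = ∑ f, w f * (z ^ c01 f * mo f p) := by
      conv_lhs => rw [← hw]
      rw [Finset.sum_apply]
      apply Finset.sum_congr rfl
      intro f _
      rw [Pi.smul_apply, smul_eq_mul, hmo]
    simp only [Q, Polynomial.eval_sub, Polynomial.eval_finsetSum, Polynomial.eval_mul,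
      Polynomial.eval_C, Polynomial.eval_pow, Polynomial.eval_X]
    rw [sub_eq_zero]
    rw [h3] at h2
    rw [mul_comm (F p), ← h2]
    apply Finset.sum_congr rfl
    intro f _
    ring
  have hQ : Q = 0 := by
    have h2 : Polynomial.X * Q = 0 := by
      apply Polynomial.funext
      intro z
      rw [Polynomial.eval_mul, Polynomial.eval_X, Polynomial.eval_zero]
      by_cases hz : z = 0
      · rw [hz, zero_mul]
      · rw [hQ0 z hz, mul_zero]
    exact (mul_eq_zero.1 h2).resolve_left Polynomial.X_ne_zero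
  have h4 : Q.coeff d = 0 := by rw [hQ, Polynomial.coeff_zero]
  simp only [Q, Polynomial.coeff_sub, Polynomial.finsetSum_coeff, Polynomial.coeff_C_mul,
    Polynomial.coeff_X_pow, if_true, mul_one] at h4
  rw [sub_eq_zero] at h4
  rw [← h4, Finset.sum_apply]
  apply Finset.sum_congr rfl
  intro f _
  rw [Pi.smul_apply, smul_eq_mul]
  change (w f * mo f p * if d = c01 f then 1 else 0) = (if c01 f = d then w f else 0) * mo f p
  by_cases h : c01 f = d
  · rw [if_pos h, if_pos h.symm, mul_one]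
  · rw [if_neg h, if_neg (fun h' => h h'.symm), mul_zero, zero_mul]

/-- A highest weight function is homogeneous in the first two coordinates. -/
lemma hom2 {B n : ℕ} (F : (Fin B → Fin (n + 2) → ℂ) → ℂ) (lam : Fin (n + 2) → ℕ)
    (hF : HWF B (n + 2) lam F) (z : ℂ) (hz : z ≠ 0) (p : Fin B → Fin (n + 2) → ℂ) :
    F (fun j => cb (z • xx p j) (p j)) = z ^ (lam 0 + lam 1) * F p := by
  classical
  let v : Fin (n + 2) → ℂ := Fin.cons z (Fin.cons z fun _ => 1)
  have hb : IsBorel (Matrix.diagonal v) := by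
    constructor
    · intro i j hij
      exact Matrix.diagonal_apply_ne _ (ne_of_gt hij)
    · intro i
      rw [Matrix.diagonal_apply_eq]
      refine Fin.cases hz (fun i' => ?_) i
      refine Fin.cases hz (fun i'' => one_ne_zero) i'
  have h1 := hF _ hb p
  have h2 : (fun j => Matrix.vecMul (p j) (Matrix.diagonal v)) =
      fun j => cb (z • xx p j) (p j) := by
    funext j i
    rw [Matrix.vecMul_diagonal]
    refine Fin.cases ?_ (fun i' => ?_) i
    · change p j 0 * z = z * p j 0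
      ring
    · refine Fin.cases ?_ (fun i'' => ?_) i'
      · change p j 1 * z = z * p j 1
        ring
      · change p j i''.succ.succ * 1 = p j i''.succ.succ
        ring
  rw [h2] at h1
  rw [h1]
  congr 1
  rw [Fin.prod_univ_succ, Fin.prod_univ_succ]
  simp only [Matrix.diagonal_apply_eq]
  have h3 : ∀ i : Fin n, v i.succ.succ ^ lam i.succ.succ = 1 := fun i => one_pow _
  rw [Finset.prod_congr rfl (fun i _ => h3 i), Finset.prod_const_one, mul_one, pow_add]
  rfl

/-- **(G2)** -/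
theorem g2 : G2 := by
  intro k N n s c a τ α H F lam hP hs hF hHW
  classical
  obtain ⟨w, hw, hFw⟩ := proj (d := lam 0 + lam 1) F hF
    (fun z hz p => hom2 F lam hHW z hz p)
  have h1 : TG s τ α H F = ∑ f, w f • TG s τ α H (mo f) := by
    funext p
    rw [Finset.sum_apply]
    unfold TG
    rw [hFw]
    simp only [Finset.sum_apply, Pi.smul_apply, smul_eq_mul, Finset.mul_sum]
    rw [Finset.sum_comm]
    apply Finset.sum_congr rfl
    intro f _
    apply Finset.sum_congr rfl
    intro i _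
    ring
  rw [h1]
  apply Submodule.sum_mem
  intro f _
  by_cases h0 : w f = 0
  · rw [h0, zero_smul]
    exact Submodule.zero_mem _
  · apply Submodule.smul_mem
    apply TG_mo_mem τ α hP H f
    rw [hw f h0, hs]

end Vale.Agent.P181.GK.H312
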